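import Mathlib

/-!
Ryser's inequality for r-partite hypergraphs of maximum degree three: a degree-one vertex gives an
induction step, and otherwise the smallest part is a small enough cover.
-/

namespace Vale.Agent.P045

open Finset

variable {V : Type*} [DecidableEq V]

/-- The edges of `H` at `v`. -/
def star (H : Finset (Finset V)) (v : V) : Finset (Finset V) := H.filter fun e => v ∈ e

/-- The edges of `H` meeting `e`. -/
def near (H : Finset (Finset V)) (e : Finset V) : Finset (Finset V) :=
  H.filter fun f => ¬ Disjoint f e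

/-- Caro-Wei for the intersection graph of a hypergraph without empty edges. -/
theorem caro_wei (H : Finset (Finset V)) (hne : ∀ e ∈ H, e.Nonempty) :
    ∃ M ⊆ H, (M : Set (Finset V)).PairwiseDisjoint id ∧
      ∑ e ∈ H, (1 : ℚ) / (near H e).card ≤ M.card := by
  classical
  induction H using Finset.strongInduction with
  | _ H ih =>
    rcases H.eq_empty_or_nonempty with rfl | hH
    · exact ⟨∅, by simp⟩
    obtain ⟨a, ha, hmin⟩ := exists_min_image H (fun e => (near H e).card) hH
    have haa : a ∈ near H a := mem_filter.2 ⟨ha, fun h => (hne a ha).ne_empty (disjoint_self.1 h)⟩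
    have hsub : near H a ⊆ H := filter_subset _ _
    obtain ⟨M, hM, hdisj, hle⟩ := ih (H \ near H a) (sdiff_ssubset hsub ⟨a, haa⟩)
      (fun e he => hne e (mem_sdiff.1 he).1)
    have hMa : ∀ f ∈ M, Disjoint f a := fun f hf => by
      have hf' := mem_sdiff.1 (hM hf)
      by_contra h
      exact hf'.2 (mem_filter.2 ⟨hf'.1, h⟩)
    have haM : a ∉ M := fun h => (mem_sdiff.1 (hM h)).2 haa
    refine ⟨insert a M, insert_subset ha (hM.trans sdiff_subset), ?_, ?_⟩
    · rw [coe_insert]
      exact hdisj.insert fun f hf _ => (hMa f hf).symm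
    · rw [card_insert_of_notMem haM, ← sum_sdiff hsub, Nat.cast_add, Nat.cast_one]
      refine add_le_add ((sum_le_sum fun e he => ?_).trans hle) ?_
      · have hpos : 0 < (near (H \ near H a) e).card := card_pos.2 ⟨e, mem_filter.2
          ⟨he, fun h => (hne e (mem_sdiff.1 he).1).ne_empty (disjoint_self.1 h)⟩⟩
        have hle' : (near (H \ near H a) e).card ≤ (near H e).card :=
          card_le_card (filter_subset_filter _ sdiff_subset)
        exact one_div_le_one_div_of_le (by exact_mod_cast hpos) (by exact_mod_cast hle')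
      · have hapos : 0 < (near H a).card := card_pos.2 ⟨a, haa⟩
        calc ∑ e ∈ near H a, (1 : ℚ) / (near H e).card
            ≤ ∑ _e ∈ near H a, (1 : ℚ) / (near H a).card := sum_le_sum fun e he =>
              one_div_le_one_div_of_le (by exact_mod_cast hapos)
                (by exact_mod_cast hmin e (hsub he))
          _ = 1 := by
              rw [sum_const, nsmul_eq_mul]
              field_simp

/-- The closed neighbourhood and the vertices of degree two of an edge. -/
theorem near_card {H : Finset (Finset V)} {r : ℕ} {e : Finset V} (he : e ∈ H) (hr : e.card = r)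
    (h2 : ∀ v ∈ e, 2 ≤ (star H v).card ∧ (star H v).card ≤ 3) :
    (near H e).card + (e.filter fun v => (star H v).card = 2).card ≤ 2 * r + 1 := by
  have hsub : near H e ⊆ insert e (e.biUnion fun v => (star H v).erase e) := by
    intro f hf
    obtain ⟨hfH, hfe⟩ := mem_filter.1 hf
    rcases eq_or_ne f e with rfl | hne
    · exact mem_insert_self _ _
    obtain ⟨v, hv, hv'⟩ := not_disjoint_iff.1 hfe
    exact mem_insert_of_mem (mem_biUnion.2 ⟨v, hv', mem_erase.2 ⟨hne, mem_filter.2 ⟨hfH, hv⟩⟩⟩)
  have h3 := (card_le_card hsub).trans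
    ((card_insert_le _ _).trans (Nat.add_le_add_right card_biUnion_le 1))
  have h4 : ∑ v ∈ e, ((star H v).erase e).card + (e.filter fun v => (star H v).card = 2).card
      = 2 * r := by
    rw [card_filter, ← sum_add_distrib, ← hr, mul_comm, ← smul_eq_mul, ← sum_const]
    refine sum_congr rfl fun v hv => ?_
    rw [card_erase_of_mem (show e ∈ star H v from mem_filter.2 ⟨he, hv⟩)]
    have := h2 v hv
    split_ifs <;> omega
  omega

theorem key_ineq {r nu m N : ℕ} (hr : 5 ≤ r ∨ (r = 4 ∧ nu ≤ 95)) (hnu : 1 ≤ nu)
    (h1 : m * m + 2 * nu * N ≤ nu * ((2 * r + 1) * m))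
    (h2 : r * (3 * ((r - 1) * nu) + 3) ≤ r * m + N) : False := by
  obtain ⟨k, rfl⟩ : ∃ k, r = k + 1 := ⟨r - 1, by omega⟩
  simp only [Nat.add_sub_cancel] at h2
  have hk : (k : ℤ) ≥ 4 ∨ ((k : ℤ) = 3 ∧ (nu : ℤ) ≤ 95) := by omega
  have hn : (1 : ℤ) ≤ nu := by exact_mod_cast hnu
  zify at h1 h2
  have h3 := mul_le_mul_of_nonneg_left h2 (by omega : (0 : ℤ) ≤ 2 * (nu : ℤ))
  rcases hk with hk | ⟨hk, hnu'⟩
  · nlinarith only [h1, h3, hn, sq_nonneg (2 * (m : ℤ) - (4 * k + 5) * nu),
      mul_nonneg (mul_nonneg (by omega : (0 : ℤ) ≤ k - 4) (by omega : (0 : ℤ) ≤ k + 2))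
        (sq_nonneg (nu : ℤ)), sq_nonneg (nu : ℤ),
      mul_nonneg (by omega : (0 : ℤ) ≤ k + 1) (by omega : (0 : ℤ) ≤ nu)]
  · rw [hk] at h1 h3
    nlinarith only [h1, h3, hn, sq_nonneg (2 * (m : ℤ) - 17 * nu),
      mul_nonneg (by omega : (0 : ℤ) ≤ nu) (by omega : (0 : ℤ) ≤ 95 - (nu : ℤ))]

/-- Ryser's inequality in maximum degree three. -/
theorem cover [Fintype V] {r : ℕ} (c : V → Fin r) :
    ∀ (H : Finset (Finset V)), (∀ e ∈ H, ∀ i, (e.filter fun v => c v = i).card = 1) →
      (∀ v, (star H v).card ≤ 3) → ∀ nu, (5 ≤ r ∨ (r = 4 ∧ nu ≤ 95)) →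
      (∀ M ⊆ H, (M : Set (Finset V)).PairwiseDisjoint id → M.card ≤ nu) →
      ∃ C : Finset V, (∀ e ∈ H, ∃ v ∈ C, v ∈ e) ∧ C.card ≤ (r - 1) * nu := by
  classical
  intro H
  induction H using Finset.strongInduction with
  | _ H ih =>
    intro hpart hdeg nu hr hnu
    rcases H.eq_empty_or_nonempty with rfl | hH
    · exact ⟨∅, by simp, by simp⟩
    have hsize : ∀ e ∈ H, e.card = r := fun e he => by
      rw [card_eq_sum_card_fiberwise (f := c) (t := univ) (fun v _ => mem_univ _),
        sum_congr rfl fun i _ => hpart e he i]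
      simp
    have hne : ∀ e ∈ H, e.Nonempty := fun e he => card_pos.1 (by rw [hsize e he]; omega)
    by_cases h1 : ∃ e ∈ H, ∃ v ∈ e, (star H v).card ≤ 1
    · obtain ⟨e, he, v, hv, hcard⟩ := h1
      have hee : e ∈ near H e :=
        mem_filter.2 ⟨he, fun h => (hne e he).ne_empty (disjoint_self.1 h)⟩
      have hsub : H \ near H e ⊆ H := sdiff_subset
      have hnu' : ∀ M ⊆ H \ near H e, (M : Set (Finset V)).PairwiseDisjoint id →
          M.card + 1 ≤ nu := by
        intro M hM hd
        have hMe : ∀ f ∈ M, Disjoint f e := fun f hf => by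
          have hf' := mem_sdiff.1 (hM hf)
          by_contra h
          exact hf'.2 (mem_filter.2 ⟨hf'.1, h⟩)
        have heM : e ∉ M := fun h => (mem_sdiff.1 (hM h)).2 hee
        have := hnu (insert e M) (insert_subset he (hM.trans hsub)) (by
          rw [coe_insert]
          exact hd.insert fun f hf _ => (hMe f hf).symm)
        rwa [card_insert_of_notMem heM] at this
      have hpos : 1 ≤ nu := (Nat.le_add_left 1 0).trans (by simpa using hnu' ∅ (empty_subset _))
      obtain ⟨C, hC, hle⟩ := ih _ (sdiff_ssubset (filter_subset _ _) ⟨e, hee⟩)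
        (fun f hf => hpart f (hsub hf))
        (fun u => (card_le_card (filter_subset_filter _ hsub)).trans (hdeg u)) (nu - 1)
        (by omega) (fun M hM hd => by have := hnu' M hM hd; omega)
      refine ⟨e.erase v ∪ C, fun f hf => ?_, ?_⟩
      · by_cases hfe : f ∈ near H e
        · have hgood : ∃ u ∈ e.erase v, u ∈ f := by
            rcases eq_or_ne f e with rfl | hne'
            · obtain ⟨u, hu⟩ : (f.erase v).Nonempty := card_pos.1 (by
                rw [card_erase_of_mem hv, hsize f hf]; omega)
              exact ⟨u, hu, mem_of_mem_erase hu⟩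
            · obtain ⟨u, hu, hu'⟩ := not_disjoint_iff.1 (mem_filter.1 hfe).2
              refine ⟨u, mem_erase.2 ⟨?_, hu'⟩, hu⟩
              rintro rfl
              exact hne' (card_le_one.1 hcard f (mem_filter.2 ⟨hf, hu⟩) e (mem_filter.2 ⟨he, hv⟩))
          obtain ⟨u, hu, hu'⟩ := hgood
          exact ⟨u, mem_union_left _ hu, hu'⟩
        · obtain ⟨u, hu, hu'⟩ := hC f (mem_sdiff.2 ⟨hf, hfe⟩)
          exact ⟨u, mem_union_right _ hu, hu'⟩
      · refine (card_union_le _ _).trans ?_
        rw [card_erase_of_mem hv, hsize e he]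
        obtain ⟨n, rfl⟩ : ∃ n, nu = n + 1 := ⟨nu - 1, by omega⟩
        simp only [Nat.add_sub_cancel] at hle
        rw [Nat.mul_succ]
        omega
    push Not at h1
    by_contra hcon
    push Not at hcon
    let supp := H.biUnion id
    have hsupp : ∀ v ∈ supp, 2 ≤ (star H v).card := fun v hv => by
      obtain ⟨e, he, hve⟩ := mem_biUnion.1 hv
      exact h1 e he v hve
    let P : Fin r → Finset V := fun i => supp.filter fun v => c v = i
    have hP : ∀ i, 3 * ((r - 1) * nu) + 3
        ≤ H.card + ((P i).filter fun v => (star H v).card = 2).card := by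
      intro i
      have hbig : (r - 1) * nu < (P i).card := hcon _ fun e he => by
        obtain ⟨v, hv⟩ := card_pos.1 (by rw [hpart e he i]; norm_num :
          0 < (e.filter fun v => c v = i).card)
        exact ⟨v, mem_filter.2 ⟨mem_biUnion.2 ⟨e, he, (mem_filter.1 hv).1⟩, (mem_filter.1 hv).2⟩,
          (mem_filter.1 hv).1⟩
      have hm : ∑ v ∈ P i, (star H v).card = H.card := by
        unfold star
        simp_rw [card_filter]
        rw [sum_comm]
        calc _ = ∑ e ∈ H, 1 := sum_congr rfl fun e he => by
              rw [← card_filter, ← hpart e he i]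
              congr 1
              ext v
              simp only [P, supp, mem_filter, mem_biUnion, id]
              exact ⟨fun h => ⟨h.2, h.1.2⟩, fun h => ⟨⟨⟨e, he, h.1⟩, h.2⟩, h.1⟩⟩
          _ = H.card := by simp
      have h3 : ∑ v ∈ P i, ((star H v).card + if (star H v).card = 2 then 1 else 0)
          = 3 * (P i).card := by
        rw [mul_comm, ← smul_eq_mul, ← sum_const]
        refine sum_congr rfl fun v hv => ?_
        have := hsupp v (mem_filter.1 hv).1
        have := hdeg v
        split_ifs <;> omega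
      rw [sum_add_distrib, hm, ← card_filter] at h3
      omega
    let N := (supp.filter fun v => (star H v).card = 2).card
    have hN : r * (3 * ((r - 1) * nu) + 3) ≤ r * H.card + N := by
      have := sum_le_sum fun i (_ : i ∈ (univ : Finset (Fin r))) => hP i
      simp only [sum_const, card_univ, Fintype.card_fin, smul_eq_mul, sum_add_distrib] at this
      have hsplit : ∑ i, ((P i).filter fun v => (star H v).card = 2).card = N := by
        rw [show N = (supp.filter fun v => (star H v).card = 2).card from rfl,
          card_eq_sum_card_fiberwise (f := c) (t := univ) (fun v _ => mem_univ _)]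
        exact sum_congr rfl fun i _ => by simp only [P, filter_comm]
      rw [hsplit] at this
      linarith
    have ht : ∑ e ∈ H, (e.filter fun v => (star H v).card = 2).card = 2 * N := by
      calc _ = ∑ e ∈ H, ∑ v ∈ supp.filter (fun v => (star H v).card = 2),
            if v ∈ e then 1 else 0 := sum_congr rfl fun e he => by
            rw [← card_filter]
            congr 1
            ext v
            simp only [supp, mem_filter, mem_biUnion, id]
            exact ⟨fun h => ⟨⟨⟨e, he, h.1⟩, h.2⟩, h.1⟩, fun h => ⟨h.2, h.1.2⟩⟩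
        _ = ∑ v ∈ supp.filter (fun v => (star H v).card = 2), 2 := by
            rw [sum_comm]
            refine sum_congr rfl fun v hv => ?_
            rw [← card_filter]
            exact (mem_filter.1 hv).2
        _ = 2 * N := by rw [sum_const, smul_eq_mul, mul_comm]
    have hD : ∑ e ∈ H, (near H e).card + 2 * N ≤ (2 * r + 1) * H.card := by
      rw [← ht, ← sum_add_distrib, mul_comm, ← smul_eq_mul, ← sum_const]
      exact sum_le_sum fun e he =>
        near_card he (hsize e he) fun v hv => ⟨h1 e he v hv, hdeg v⟩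
    obtain ⟨M, hM, hMd, hCW⟩ := caro_wei H hne
    have hnpos : ∀ e ∈ H, (0 : ℚ) < (near H e).card := fun e he => by
      exact_mod_cast card_pos.2 ⟨e, mem_filter.2
        ⟨he, fun h => (hne e he).ne_empty (disjoint_self.1 h)⟩⟩
    have hCS := sq_sum_div_le_sum_sq_div H (fun _ => (1 : ℚ)) hnpos
    simp only [one_pow, sum_const, nsmul_eq_mul, mul_one] at hCS
    rw [div_le_iff₀ (sum_pos hnpos hH)] at hCS
    have hm2 : H.card * H.card ≤ nu * ∑ e ∈ H, (near H e).card := by
      have h := hCS.trans (mul_le_mul_of_nonneg_right (hCW.trans (Nat.cast_le.2 (hnu M hM hMd)))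
        (sum_nonneg fun e he => (hnpos e he).le))
      rw [sq] at h
      exact_mod_cast h
    have hnu1 : 1 ≤ nu := by
      obtain ⟨e, he⟩ := hH
      simpa using hnu {e} (singleton_subset_iff.2 he) (by simp)
    refine key_ineq hr hnu1 ?_ hN
    calc H.card * H.card + 2 * nu * N ≤ nu * ∑ e ∈ H, (near H e).card + nu * (2 * N) := by
          have : 2 * nu * N = nu * (2 * N) := by ring
          omega
      _ ≤ nu * ((2 * r + 1) * H.card) := by
          rw [← mul_add]
          exact Nat.mul_le_mul_left _ hD

end Vale.Agent.P045
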